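import Vale.Agent.Lib.P249.helper62.GridCore
import Vale.Agent.Lib.P249.helper46.GridFinalCore

namespace Vale.Agent.Results.P249.GridLowerBound

/-- For every real exponent `2 ≤ p < ∞` and every `k ≥ 1` there are `n = (6 k + 1)^k` distinct
points `x i` of `ℓ_p^m` (the Rademacher sums of the integer grid `{-3k, …, 3k}^k`) such that
every map `y` of these points into `ℓ_p^d`, linear or not, with
`s ‖x i - x j‖ ≤ ‖y i - y j‖ ≤ D s ‖x i - x j‖` for all `i, j` (some `s > 0`) has
`d ≥ (1/11) (2k / (3 p²))^(p/2) / D^p`.  In terms of the number of points this is of order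
`(log n / log log n)^(p/2)`, which is more than logarithmic for every `p > 2`. -/
theorem result (p : ENNReal) [Fact (1 ≤ p)] (hp : p ≠ ⊤) (hp2 : 2 ≤ p) (k : ℕ) (hk : 1 ≤ k) :
    ∃ (m : ℕ) (x : Fin ((6 * k + 1) ^ k) → PiLp p (fun _ : Fin m => ℝ)), Function.Injective x ∧
      ∀ (d : ℕ) (y : Fin ((6 * k + 1) ^ k) → PiLp p (fun _ : Fin d => ℝ)) (s D : ℝ), 0 < s →
        (∀ i j, s * dist (x i) (x j) ≤ dist (y i) (y j) ∧
          dist (y i) (y j) ≤ D * s * dist (x i) (x j)) →
        (1 / 11 : ℝ) * (2 * k / (3 * p.toReal ^ 2)) ^ (p.toReal / 2) ≤ D ^ p.toReal * d :=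
  Vale.Agent.Lib.P249.H46.grid_final_of_core
    (fun k hk q hq d s D hs y hlow hup =>
      Vale.Agent.Lib.P249.H62.grid_core k hk q hq d s D hs y hlow hup)
    Vale.Agent.Lib.P249.H62.gX_injective p hp hp2 k hk

end Vale.Agent.Results.P249.GridLowerBound
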