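import Vale.Agent.Lib.P249.helper21.IncGlue
import Vale.Agent.Lib.P249.helper72.IncompFin

namespace Vale.Agent.Results.P249.Incompressible

universe u

/-- Dimension reduction of Johnson-Lindenstrauss type, with additive error, for families of
`L_p` with an envelope.  Let `1 ≤ p < ∞`, let `μ` be any measure, and let `f 1, …, f n` be points
of the real space `L_p(μ)` that are dominated almost everywhere by one function `g` of `L_p(μ)`
with `‖g‖ ≤ K` (for `g = max_i |f i|` this says `‖max_i |f i|‖_p ≤ K`).  Then for every `ε > 0`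
there are a dimension `d ≤ 170 (2K)^(2p) log n / ε²` and points `y 1, …, y n` of `ℓ_p^d` with
`| ‖y i - y j‖_p^p - ‖f i - f j‖_p^p | ≤ ε` for all `i, j`.
Degenerate cases: for `n ≤ 1` or `K = 0` the bound forces `d = 0`, and then all distances on
both sides are `0`; `K < 0` is impossible since `‖g‖ ≤ K`. -/
theorem result (α : Type u) [MeasurableSpace α] (μ : MeasureTheory.Measure α)
    (p : ENNReal) [Fact (1 ≤ p)] (hp : p ≠ ⊤) (K ε : ℝ) (hε : 0 < ε) (n : ℕ)
    (f : Fin n → MeasureTheory.Lp ℝ p μ) (g : MeasureTheory.Lp ℝ p μ)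
    (hg : ∀ i, ∀ᵐ a ∂μ, |f i a| ≤ g a) (hK : ‖g‖ ≤ K) :
    ∃ (d : ℕ) (y : Fin n → PiLp p (fun _ : Fin d => ℝ)),
      (d : ℝ) ≤ 170 * (2 * K) ^ (2 * p.toReal) * Real.log n / ε ^ 2 ∧
      ∀ i j, |dist (y i) (y j) ^ p.toReal - dist (f i) (f j) ^ p.toReal| ≤ ε :=
  Vale.Agent.Lib.P249.H21Inc.incompressible_of
    (fun p hp m n hn x M hM K hK0 hK ε hε hεK =>
      Vale.Agent.Lib.P249.H72.incomp_fin p hp m n hn x M hM K hK0 hK ε hε hεK)
    μ p hp K ε hε n f g hg hK

end Vale.Agent.Results.P249.Incompressible
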