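import Vale.Agent.Lib.P249.helper75.KNN
import Vale.Agent.Lib.P249.helper21.LinEps

namespace Vale.Agent.Results.P249.NLogN

/-- For every `1 ≤ p < ∞`, every `0 < ε ≤ 1` and any `n ≥ 2` points of `ℓ_p^m`, some weighted
selection of `d ≤ 289 · 76^p · ε⁻² · n · log n` coordinates (with repetition) has distortion at
most `1 + ε` on the points: the map `x ↦ (c l * x (κ l))_l` is linear, the logarithm enters to
the first power for every `p`, and the bound has no unspecified constant. -/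
theorem result (p : ENNReal) [Fact (1 ≤ p)] (hp : p ≠ ⊤) (ε : ℝ) (hε : 0 < ε) (hε1 : ε ≤ 1)
    (n m : ℕ) (hn : 2 ≤ n) (x : Fin n → PiLp p (fun _ : Fin m => ℝ)) :
    ∃ (d : ℕ) (κ : Fin d → Fin m) (c : Fin d → ℝ),
      (d : ℝ) ≤ 289 * 76 ^ p.toReal / ε ^ 2 * n * Real.log n ∧
      ∀ i j,
        dist (x i) (x j) ≤
            dist (WithLp.toLp p (fun l => c l * x i (κ l)) : PiLp p (fun _ : Fin d => ℝ))
              (WithLp.toLp p (fun l => c l * x j (κ l))) ∧
          dist (WithLp.toLp p (fun l => c l * x i (κ l)) : PiLp p (fun _ : Fin d => ℝ))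
              (WithLp.toLp p (fun l => c l * x j (κ l))) ≤
            (1 + ε) * dist (x i) (x j) := by
  have hp1 : (1 : ENNReal) ≤ p := Fact.out
  have hq1 : 1 ≤ p.toReal := by
    have := ENNReal.toReal_mono hp hp1
    simpa using this
  have h76 : (76 : ℝ) ≤ (76 : ℝ) ^ p.toReal := by
    have := Real.rpow_le_rpow_of_exponent_le (by norm_num : (1 : ℝ) ≤ 76) hq1
    simpa using this
  obtain ⟨d, κ, c, hd, hy⟩ := Vale.Agent.Lib.P249.H21.lin_eps_of_sens p hp
    ((76 : ℝ) ^ p.toReal) 0 (by linarith) le_rfl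
    (fun n m _ x => by
      obtain ⟨s, hs0, hs, hS⟩ :=
        Vale.Agent.Lib.P249.H75.KNN.sens_knn p.toReal hq1 n m (fun i k => x i k)
      refine ⟨s, hs0, hs, ?_⟩
      rw [Real.rpow_zero, mul_one]
      exact hS)
    ε hε hε1 n m hn x
  refine ⟨d, κ, c, le_trans hd ?_, hy⟩
  rw [zero_add, Real.rpow_one, Real.rpow_one]
  have hn' : (2 : ℝ) ≤ n := by exact_mod_cast hn
  have hlogn : 0 < Real.log n := Real.log_pos (by linarith)
  have hε2 : 0 < ε ^ 2 := by positivity
  have hl2 : (1 / 2 : ℝ) ≤ Real.log 2 := by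
    have := Real.log_two_gt_d9
    linarith
  have h1 : 1 / Real.log 2 ≤ 2 := by
    rw [div_le_iff₀ (by linarith)]
    linarith
  have hC : 288 * (76 : ℝ) ^ p.toReal + 1 / Real.log 2 ≤ 289 * (76 : ℝ) ^ p.toReal := by
    linarith
  have hfac : 0 ≤ 1 / ε ^ 2 * ((n : ℝ) * Real.log n) := by positivity
  calc (288 * (76 : ℝ) ^ p.toReal + 1 / Real.log 2) / ε ^ 2 * n * Real.log n
      = (288 * (76 : ℝ) ^ p.toReal + 1 / Real.log 2) * (1 / ε ^ 2 * ((n : ℝ) * Real.log n)) := by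
        ring
    _ ≤ 289 * (76 : ℝ) ^ p.toReal * (1 / ε ^ 2 * ((n : ℝ) * Real.log n)) :=
        mul_le_mul_of_nonneg_right hC hfac
    _ = 289 * 76 ^ p.toReal / ε ^ 2 * n * Real.log n := by ring

end Vale.Agent.Results.P249.NLogN
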