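import Vale.Agent.Lib.P249.helper21.TwoSidedLib

namespace Vale.Agent.Results.P249.TwoSided

universe u

/-- Both bounds for every exponent `2 ≤ p < ∞` and every number `n ≥ 7` of points.
Lower bound: there are `n` distinct points of some `ℓ_p^m` such that every map of them into
`ℓ_p^d` with `s ‖x i - x j‖ ≤ ‖y i - y j‖ ≤ D s ‖x i - x j‖` (some `s > 0`) has
`D^p d ≥ (1/11) (log n / (3 p² log (6 log n + 7)))^(p/2)`.
Upper bound: any `n` points of the real space `L_p(μ)` over any measure space are mapped into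
`ℓ_p^d` with `d ≤ 290 · 76^p · ε⁻² · n · log n` so that no distance shrinks and none grows by
more than the factor `1 + ε`. -/
theorem result (p : ENNReal) [Fact (1 ≤ p)] (hp : p ≠ ⊤) (hp2 : 2 ≤ p) (n : ℕ) (hn : 7 ≤ n) :
    (∃ (m : ℕ) (x : Fin n → PiLp p (fun _ : Fin m => ℝ)), Function.Injective x ∧
      ∀ (d : ℕ) (y : Fin n → PiLp p (fun _ : Fin d => ℝ)) (s D : ℝ), 0 < s →
        (∀ i j, s * dist (x i) (x j) ≤ dist (y i) (y j) ∧
          dist (y i) (y j) ≤ D * s * dist (x i) (x j)) →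
        (1 / 11 : ℝ) * (Real.log n / (3 * p.toReal ^ 2 * Real.log (6 * Real.log n + 7))) ^
          (p.toReal / 2) ≤ D ^ p.toReal * d) ∧
    (∀ (α : Type u) [MeasurableSpace α] (μ : MeasureTheory.Measure α) (ε : ℝ), 0 < ε → ε ≤ 1 →
      ∀ f : Fin n → MeasureTheory.Lp ℝ p μ,
        ∃ (d : ℕ) (y : Fin n → PiLp p (fun _ : Fin d => ℝ)),
          (d : ℝ) ≤ 290 * 76 ^ p.toReal / ε ^ 2 * n * Real.log n ∧
          ∀ i j, dist (f i) (f j) ≤ dist (y i) (y j) ∧
            dist (y i) (y j) ≤ (1 + ε) * dist (f i) (f j)) :=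
  ⟨Vale.Agent.Lib.P249.H21Two.lower_all_n p hp hp2 n hn,
   fun _ _ μ ε hε hε1 f =>
     Vale.Agent.Lib.P249.H21Lp.nlogn_Lp μ p hp ε hε hε1 n (by omega) f⟩

end Vale.Agent.Results.P249.TwoSided
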